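import Vale.Agent.P370Z.NUM.Kap
import Vale.Agent.P370Z.PT.Rat

/-!
# P370: rational approximations of `1 / (4 π)` and of `kap0`
-/

namespace Vale.Agent.P370Z

open MeasureTheory Finset
open Vale.Agent.Lib.PolyTime (PT PBd Un Raw)

namespace NUM

/-- Wallis product -/
def wq (n : ℕ) : ℚ := ∏ i ∈ range n, (2 * (i : ℚ) + 2) / (2 * i + 1) * ((2 * i + 2) / (2 * i + 3))

def pH (n : ℕ) : ℚ := 1 / (8 * wq n)

/-- approximation of the square root of two -/
def rt (n : ℕ) : ℚ := (Nat.sqrt (2 * (16 * n) ^ 2) : ℚ) / (16 * n)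

def kH (n : ℕ) : ℚ := 8 * ∑ i ∈ range (100 * n), (rt n / (1 + rt n)) ^ (i + 1) / (i + 1)

theorem wq_cast (n : ℕ) : (wq n : ℝ) = Real.Wallis.W n := by
  simp [wq, Real.Wallis.W]

theorem pH_spec {n : ℕ} (hn : 1 ≤ n) :
    |4 * Real.pi * pH n - 1| ≤ 1 / n ∧ 1 / 16 ≤ pH n ∧ pH n ≤ 1 := by
  have h1 := Real.Wallis.W_le n
  have h2 := Real.Wallis.le_W n
  have h3 := Real.Wallis.W_pos n
  have hn' : (1 : ℝ) ≤ n := by exact_mod_cast hn
  have e : (pH n : ℝ) = 1 / (8 * Real.Wallis.W n) := by simp [pH, wq_cast]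
  have p3 := Real.pi_gt_three
  have p4 := Real.pi_le_four
  set W := Real.Wallis.W n
  have h4 : (2 * n + 1) * Real.pi ≤ 2 * W * (2 * n + 2) := by
    rw [div_mul_eq_mul_div, div_le_iff₀ (by positivity)] at h2
    linarith
  refine ⟨?_, ?_, ?_⟩
  · rw [e, abs_le]
    constructor
    · have : 1 ≤ 4 * Real.pi * (1 / (8 * W)) := by
        rw [mul_one_div, le_div_iff₀ (by positivity)]
        linarith
      have : (0 : ℝ) ≤ 1 / n := by positivity
      linarith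
    · rw [sub_le_iff_le_add, mul_one_div, div_add_one (by positivity),
        div_le_div_iff₀ (by positivity) (by positivity)]
      nlinarith
  · have : ((1 / 16 : ℚ) : ℝ) ≤ pH n := by
      rw [e]
      push_cast
      exact one_div_le_one_div_of_le (by positivity) (by linarith)
    exact_mod_cast this
  · have : (pH n : ℝ) ≤ 1 := by
      rw [e, div_le_one (by positivity)]
      nlinarith
    exact_mod_cast this

theorem rt_spec {n : ℕ} (hn : 1 ≤ n) :
    (0 : ℝ) ≤ rt n ∧ (rt n : ℝ) ≤ √2 ∧ √2 ≤ rt n + 1 / (16 * n : ℝ) := by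
  have hn' : (0 : ℝ) < 16 * n := by
    have : (1 : ℝ) ≤ n := by exact_mod_cast hn
    linarith
  have e : (rt n : ℝ) = (Nat.sqrt (2 * (16 * n) ^ 2) : ℝ) / (16 * n) := by simp [rt]
  have e2 : √((2 * (16 * n) ^ 2 : ℕ) : ℝ) = √2 * (16 * n) := by
    push_cast
    rw [Real.sqrt_mul (by norm_num), Real.sqrt_sq hn'.le]
  have h1 := Real.nat_sqrt_le_real_sqrt (a := 2 * (16 * n) ^ 2)
  have h2 := Real.real_sqrt_le_nat_sqrt_succ (a := 2 * (16 * n) ^ 2)
  rw [e2] at h1 h2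
  refine ⟨by rw [e]; positivity, by rw [e, div_le_iff₀ hn']; exact h1, ?_⟩
  rw [e, ← add_div, le_div_iff₀ hn']
  exact h2

theorem kH_spec {n : ℕ} (hn : 1 ≤ n) : |(kH n : ℝ) - kap0| ≤ 1 / n := by
  obtain ⟨h0, h1, h2⟩ := rt_spec hn
  have hn' : (1 : ℝ) ≤ n := by exact_mod_cast hn
  have hs : √2 ≤ (3 / 2 : ℝ) := Real.sqrt_le_iff.2 ⟨by norm_num, by norm_num⟩
  have e : (kH n : ℝ) =
      8 * ∑ i ∈ range (100 * n), ((rt n : ℝ) / (1 + rt n)) ^ (i + 1) / (i + 1) := by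
    simp [kH]
  set r : ℝ := (rt n : ℝ)
  have x0 : 0 ≤ r / (1 + r) := by positivity
  have x1 : r / (1 + r) ≤ 3 / 5 := by
    rw [div_le_iff₀ (by positivity)]
    linarith
  have h3 := Real.abs_log_sub_add_sum_range_le (x := r / (1 + r))
    (by rw [abs_of_nonneg x0]; linarith) (100 * n)
  have e3 : Real.log (1 - r / (1 + r)) = -Real.log (1 + r) := by
    rw [← Real.log_inv]
    congr 1
    field_simp
    ring
  rw [e3, abs_of_nonneg x0] at h3
  have h4 : (r / (1 + r)) ^ (100 * n + 1) / (1 - r / (1 + r)) ≤ 1 / (16 * n) := by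
    have a1 : (r / (1 + r)) ^ (100 * n + 1) ≤ (3 / 5) ^ (100 * n + 1) := pow_le_pow_left₀ x0 x1 _
    have a2 : 1 + ((100 * n + 1 : ℕ) : ℝ) * (2 / 3) ≤ (1 + 2 / 3) ^ (100 * n + 1) :=
      one_add_mul_le_pow (by norm_num) _
    have a3 : (3 / 5 : ℝ) ^ (100 * n + 1) ≤ 1 / (40 * n) := by
      rw [show (3 / 5 : ℝ) = 1 / (1 + 2 / 3) by norm_num, one_div_pow]
      refine one_div_le_one_div_of_le (by positivity) (le_trans ?_ a2)
      push_cast
      linarith
    rw [div_le_iff₀ (by linarith)]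
    refine (a1.trans a3).trans ?_
    have a4 : (1 : ℝ) / (40 * n) = 1 / (16 * n) * (2 / 5) := by field_simp; norm_num
    rw [a4]
    exact mul_le_mul_of_nonneg_left (by linarith) (by positivity)
  have h5 : Real.log (1 + r) ≤ Real.log (1 + √2) := Real.log_le_log (by positivity) (by linarith)
  have h6 : Real.log (1 + √2) - Real.log (1 + r) ≤ 1 / (16 * n) := by
    rw [← Real.log_div (by positivity) (by positivity)]
    refine (Real.log_le_sub_one_of_pos (by positivity)).trans ?_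
    rw [div_sub_one (by positivity), div_le_iff₀ (by positivity)]
    have : (0 : ℝ) ≤ 1 / (16 * n) * r := by positivity
    linarith
  have h7 := abs_le.1 (h3.trans h4)
  have e4 : (1 : ℝ) / n = 16 * (1 / (16 * n)) := by field_simp
  have h8 : (0 : ℝ) ≤ 1 / (16 * n) := by positivity
  rw [e, kap0_eq, e4, abs_le]
  constructor <;> linarith [h7.1, h7.2]

theorem pt_pH : PT ∅ fun n : Un => pH n.v := by
  unfold pH wq
  fun_prop

theorem pt_rt : PT ∅ fun n : Un => rt n.v := by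
  unfold rt
  have h : PT ∅ fun n : Un => Nat.sqrt (2 * (16 * n.v) ^ 2) := PT.natSqrt (by fun_prop)
  fun_prop

theorem pt_kH : PT ∅ fun n : Un => kH n.v := by
  have h : PT ∅ fun p : Un × ℕ => rt p.1.v := pt_rt.comp PT.fst'
  have hb : PBd fun p : Un × ℕ => min p.2 (100 * p.1.v) + 1 :=
    (((PBd.const 100).mul (PBd.unVal (A := ∅) PT.fst')).add (PBd.const 1)).mono fun p =>
      Nat.add_le_add_right (min_le_right _ _) 1
  have h1 : PT ∅ fun p : Un × ℕ =>
      (rt p.1.v / (1 + rt p.1.v)) ^ (min p.2 (100 * p.1.v) + 1) / (p.2 + 1) :=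
    PTQ.PT_ratDiv (PTQ.PT_ratPow (by fun_prop) (by fun_prop) hb) (by fun_prop)
  have h2 := PTQ.PT_ratSumRange (k := fun n : Un => 100 * n.v)
    (f := fun n i => (rt n.v / (1 + rt n.v)) ^ (min i (100 * n.v) + 1) / (i + 1)) (by fun_prop)
    ((PBd.const 100).mul (PBd.unVal (A := ∅) PT.id)) h1
  refine (PTQ.PT_ratMul (PT.const 8) h2).congr fun n => ?_
  unfold kH
  congr 1
  exact sum_congr rfl fun i hi => by rw [min_eq_left (mem_range.1 hi).le]

end NUM

theorem num : ∃ pHat kHat : ℕ → ℚ, PT ∅ (fun n : Un => pHat n.v) ∧ PT ∅ (fun n : Un => kHat n.v) ∧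
    ∀ n : ℕ, 1 ≤ n → |4 * Real.pi * pHat n - 1| ≤ 1 / n ∧ 1 / 16 ≤ pHat n ∧ pHat n ≤ 1 ∧
      |(kHat n : ℝ) - kap0| ≤ 1 / n :=
  ⟨NUM.pH, NUM.kH, NUM.pt_pH, NUM.pt_kH, fun _ hn =>
    ⟨(NUM.pH_spec hn).1, (NUM.pH_spec hn).2.1, (NUM.pH_spec hn).2.2, NUM.kH_spec hn⟩⟩

end Vale.Agent.P370Z
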