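import Vale.Agent.P370Z.Basic

/-!
# P370: the value of `kap0`
-/

namespace Vale.Agent.P370Z.NUM

open MeasureTheory Set

theorem sq_lt_sqrt {x : ℝ} (hx : x ≠ 0) (y : ℝ) : -y < √(x ^ 2 + y ^ 2) := by
  have h : 0 < x ^ 2 := by positivity
  refine (neg_le_abs y).trans_lt ?_
  rw [← Real.sqrt_sq_eq_abs]
  exact Real.sqrt_lt_sqrt (sq_nonneg y) (by linarith)

theorem inner_cont {x : ℝ} (hx : x ≠ 0) : Continuous fun y : ℝ => 1 / √(x ^ 2 + y ^ 2) := by
  refine continuous_const.div (by fun_prop) fun y => ?_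
  have h : 0 < x ^ 2 + y ^ 2 := by positivity
  exact (Real.sqrt_pos.2 h).ne'

/-- the inner integral -/
noncomputable def inn (x : ℝ) : ℝ := 2 * (Real.log (1 + √(x ^ 2 + 1)) - Real.log x)

theorem inner_eq {x : ℝ} (hx : x ≠ 0) :
    ∫ y in Icc (-1 : ℝ) 1, 1 / √(x ^ 2 + y ^ 2) = inn x := by
  rw [integral_Icc_eq_integral_Ioc, ← intervalIntegral.integral_of_le (by norm_num)]
  have hd : ∀ y ∈ uIcc (-1 : ℝ) 1, HasDerivAt (fun y => Real.log (y + √(x ^ 2 + y ^ 2)))
      (1 / √(x ^ 2 + y ^ 2)) y := by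
    intro y _
    have h : 0 < x ^ 2 + y ^ 2 := by positivity
    have hs : 0 < √(x ^ 2 + y ^ 2) := Real.sqrt_pos.2 h
    have h1 : 0 < y + √(x ^ 2 + y ^ 2) := by linarith [sq_lt_sqrt hx y]
    have h2 : HasDerivAt (fun y : ℝ => x ^ 2 + y ^ 2) (2 * y) y := by
      simpa using (hasDerivAt_pow 2 y).const_add (x ^ 2)
    have h3 := ((hasDerivAt_id y).add (h2.sqrt h.ne')).log h1.ne'
    refine h3.congr_deriv ?_
    simp only [id, Pi.add_apply]
    field_simp
    ring
  rw [intervalIntegral.integral_eq_sub_of_hasDerivAt hd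
    ((inner_cont hx).intervalIntegrable _ _)]
  have h1 : 0 < -1 + √(x ^ 2 + 1) := by
    have := sq_lt_sqrt hx (-1)
    simp only [neg_neg, even_two, Even.neg_pow, one_pow] at this
    linarith
  have h2 : 0 < 1 + √(x ^ 2 + 1) := by positivity
  have h3 : (-1 + √(x ^ 2 + 1)) * (1 + √(x ^ 2 + 1)) = x ^ 2 := by
    have := Real.mul_self_sqrt (show 0 ≤ x ^ 2 + 1 by positivity)
    nlinarith
  have h4 : Real.log (-1 + √(x ^ 2 + 1)) + Real.log (1 + √(x ^ 2 + 1)) = 2 * Real.log x := by
    rw [← Real.log_mul h1.ne' h2.ne', h3, Real.log_pow]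
    norm_num
  simp only [inn, one_pow, even_two, Even.neg_pow]
  linarith

theorem inn_int : IntervalIntegrable inn volume (-1) 1 := by
  refine IntervalIntegrable.const_mul (IntervalIntegrable.sub ?_ intervalIntegral.intervalIntegrable_log') 2
  refine Continuous.intervalIntegrable (Continuous.log (by fun_prop) fun x => ?_) _ _
  positivity

theorem int_log1 : ∫ x in (-1 : ℝ)..1, Real.log (1 + √(x ^ 2 + 1)) =
    4 * Real.log (1 + √2) - 2 := by
  have hd : ∀ x ∈ uIcc (-1 : ℝ) 1, HasDerivAt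
      (fun x => x * Real.log (1 + √(x ^ 2 + 1)) - x + Real.log (x + √(x ^ 2 + 1)))
      (Real.log (1 + √(x ^ 2 + 1))) x := by
    intro x _
    have h : 0 < x ^ 2 + 1 := by positivity
    have hs : 0 < √(x ^ 2 + 1) := Real.sqrt_pos.2 h
    have h0 : 0 < 1 + √(x ^ 2 + 1) := by positivity
    have h1 : 0 < x + √(x ^ 2 + 1) := by
      have := sq_lt_sqrt one_ne_zero x
      rw [one_pow, add_comm] at this
      linarith
    have h2 : HasDerivAt (fun x : ℝ => x ^ 2 + 1) (2 * x) x := by
      simpa using (hasDerivAt_pow 2 x).add_const 1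
    have h3 := ((hasDerivAt_id x).add (h2.sqrt h.ne')).log h1.ne'
    have h4 := ((h2.sqrt h.ne').const_add 1).log h0.ne'
    have h5 := (((hasDerivAt_id x).mul h4).sub (hasDerivAt_id x)).add h3
    refine h5.congr_deriv ?_
    simp only [id, Pi.add_apply]
    have h6 := Real.mul_self_sqrt h.le
    set s := √(x ^ 2 + 1)
    field_simp
    have h7 : x ^ 2 = s * s - 1 := by linarith
    linear_combination (s + x) * h7
  rw [intervalIntegral.integral_eq_sub_of_hasDerivAt hd
    (Continuous.intervalIntegrable (Continuous.log (by fun_prop) fun x => by positivity) _ _)]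
  have h1 : (0 : ℝ) < -1 + √2 := by
    have : (1 : ℝ) < √2 := Real.one_lt_sqrt_two
    linarith
  have h2 : (0 : ℝ) < 1 + √2 := by positivity
  have h3 : (-1 + √2) * (1 + √2) = (1 : ℝ) := by
    have := Real.mul_self_sqrt (show (0 : ℝ) ≤ 2 by norm_num)
    nlinarith
  have h4 : Real.log (-1 + √2) + Real.log (1 + √2) = 0 := by
    rw [← Real.log_mul h1.ne' h2.ne', h3, Real.log_one]
  simp only [one_pow, even_two, Even.neg_pow, one_add_one_eq_two]
  linarith

theorem int_inn : ∫ x in Icc (-1 : ℝ) 1, inn x = 8 * Real.log (1 + √2) := by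
  rw [integral_Icc_eq_integral_Ioc, ← intervalIntegral.integral_of_le (by norm_num)]
  unfold inn
  rw [intervalIntegral.integral_const_mul, intervalIntegral.integral_sub
    (Continuous.intervalIntegrable (Continuous.log (by fun_prop) fun x => by positivity) _ _)
    intervalIntegral.intervalIntegrable_log', int_log1, integral_log]
  simp
  ring

theorem ae_ne : ∀ᵐ x ∂(volume.restrict (Icc (-1 : ℝ) 1)), x ≠ 0 :=
  ae_restrict_of_ae (by simp [ae_iff])

theorem kap0_integrable : IntegrableOn (fun p : ℝ × ℝ => 1 / √(p.1 ^ 2 + p.2 ^ 2))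
    (Icc (-1 : ℝ) 1 ×ˢ Icc (-1 : ℝ) 1) := by
  rw [IntegrableOn, Measure.volume_eq_prod, ← Measure.prod_restrict, integrable_prod_iff
    (Measurable.aestronglyMeasurable (by fun_prop))]
  refine ⟨ae_ne.mono fun x hx => (inner_cont hx).integrableOn_Icc, ?_⟩
  have h1 : IntegrableOn inn (Icc (-1 : ℝ) 1) :=
    (intervalIntegrable_iff_integrableOn_Icc_of_le (by norm_num)).1 inn_int
  refine h1.congr (ae_ne.mono fun x hx => ?_)
  rw [← inner_eq hx]
  refine integral_congr_ae (Filter.Eventually.of_forall fun y => ?_)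
  simp only [Real.norm_eq_abs]
  rw [abs_of_nonneg (by positivity)]

theorem kap0_eq : kap0 = 8 * Real.log (1 + √2) := by
  have h := kap0_integrable
  rw [IntegrableOn, Measure.volume_eq_prod, ← Measure.prod_restrict] at h
  rw [kap0, Measure.volume_eq_prod, ← Measure.prod_restrict, integral_prod _ h, ← int_inn]
  exact integral_congr_ae (ae_ne.mono fun x hx => inner_eq hx)

end Vale.Agent.P370Z.NUM
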